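import Vale.Agent.P014K.Final
import Vale.Agent.P014S.Sel

/-!
# The `2`-part of the Birch and Swinnerton-Dyer formula for real quadratic twists of `X₀(17)`
-/

namespace Vale.Agent.Results.P014.TwistsX017

open Vale.Agent.P014

/-- The quadratic twist by `d = 4 k + 1` of `X₀(17) : y² + x y + y = x³ - x² - x - 14`
(the case `k = 0`). -/
def X17 (k : ℤ) : WeierstrassCurve ℚ where
  a₁ := 1
  a₂ := -3 * k - 1
  a₃ := 1
  a₄ := -8 * k ^ 2 - 4 * k - 1
  a₆ := -880 * k ^ 3 - 660 * k ^ 2 - 165 * k - 14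

/-- The twisting parameters: `d` is squarefree, every prime factor splits in `ℚ(i)` and in
`ℚ(√17)`, there is no factorisation `d = d₁ d₂` with `d₁, d₂ > 1` in which each factor is a square
modulo every prime of the other one, and `d = r² + s²` with `r + 4 s` a non-residue modulo `17`. -/
def Family (d : ℕ) : Prop :=
  Squarefree d ∧ (∀ p : ℕ, p.Prime → p ∣ d → p % 4 = 1 ∧ jacobiSym p 17 = 1) ∧
    (∀ d₁ d₂ : ℕ, d₁ * d₂ = d → (∀ p : ℕ, p.Prime → p ∣ d₂ → jacobiSym d₁ p = 1) →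
      (∀ p : ℕ, p.Prime → p ∣ d₁ → jacobiSym d₂ p = 1) → d₁ = 1 ∨ d₂ = 1) ∧
    ∃ r s : ℤ, r ^ 2 + s ^ 2 = d ∧ jacobiSym (r + 4 * s) 17 = -1

theorem result :
    (∀ (k : ℤ) (d : ℕ), 4 * k + 1 = d → Family d →
      (X17 k).IsElliptic ∧ (X17 k).c₄ = d ^ 2 * (X17 0).c₄ ∧ (X17 k).c₆ = d ^ 3 * (X17 0).c₆ ∧
        GlobalMinimal (X17 k) ∧ Finite (X17 k).toAffine.Point ∧
        Nat.card (shaPrimary (X17 k) 2) = 1 ∧
        tamagawaProduct (X17 k) = 4 ^ (d.primeFactors.card + 1) ∧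
        padicValNat 2 (torsionOrder (X17 k)) = 1 ∧ (∃ L, IsHasseWeil (X17 k) L) ∧
        ∀ L, IsHasseWeil (X17 k) L → L 1 ≠ 0 ∧ PPartRankZero (X17 k) L 2) ∧
      ∀ t : ℕ, 0 < t → {d : ℕ | d % 4 = 1 ∧ Family d ∧ d.primeFactors.card = t}.Infinite := by
  refine ⟨fun k d hk hF => ?_, fun t ht => Set.infinite_of_forall_exists_gt fun B => ?_⟩
  · have hk' : (d : ℚ) = 4 * k + 1 := by exact_mod_cast hk.symm
    have S : Vale.Agent.P014S.Sp (X17 k) d := ⟨by simp only [X17, hk']; ring,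
      by simp only [X17, hk']; ring, by simp only [X17, hk']; ring,
      by exact_mod_cast hF.1.ne_zero⟩
    obtain ⟨a1, a2, a3, a4, a5⟩ := Vale.Agent.P014K.fam_pos Vale.Agent.P014S.sel2 k d hk hF
    refine ⟨S.elliptic, ?_, ?_, a1, a2, a3, ?_, (Vale.Agent.P014S.sel2 k d hk hF).2.2, a4, a5⟩
    · simp only [X17, hk', WeierstrassCurve.c₄, WeierstrassCurve.b₂, WeierstrassCurve.b₄]
      push_cast
      ring
    · simp only [X17, hk', WeierstrassCurve.c₆, WeierstrassCurve.b₂, WeierstrassCurve.b₄,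
        WeierstrassCurve.b₆]
      push_cast
      ring
    · exact (Vale.Agent.P014K.tam2 k d hk hF).2.trans (pow_succ' _ _).symm
  · obtain ⟨d, h1, h2, h3⟩ := Vale.Agent.P014K.nv2 t B ht
    exact ⟨d, ⟨Vale.Agent.P014S.d_mod h2.1 h2.2.1, h2, h3⟩, h1⟩

end Vale.Agent.Results.P014.TwistsX017
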